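import Vale.Agent.N352.Rn.Uq

/-!
# N352, block Bo: two cores
-/

set_option linter.all false

open MeasureTheory Filter Topology
open scoped ComplexConjugate

namespace Vale.Agent.N352.Rn

open Vale.Agent.P352 Vale.Agent.P352.BW Vale.Agent.P352.BW.H234U
open Complex (I)

noncomputable section

variable {H : Type*} [NormedAddCommGroup H] [InnerProductSpace ℂ H] [CompleteSpace H]
  {V : ℝ → H →L[ℂ] H} {n : ℝ}

theorem ex_anti {ι : Type*} {k y : ι → H} (d : DenseRange k)
    (h : ∀ i j, inner ℂ (y i) (y j) = inner ℂ (k j) (k i)) : ∃ T : H → H, Continuous T ∧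
      (∀ a b, inner ℂ (T a) (T b) = inner ℂ b a) ∧ ∀ i, T (k i) = y i := by
  have e : ∀ i j, dist (y i) (y j) = dist (k i) (k j) := fun i j => by
    rw [dist_eq_norm, dist_eq_norm, norm_eq_sqrt_re_inner (𝕜 := ℂ), norm_eq_sqrt_re_inner (𝕜 := ℂ)]
    simp only [inner_sub_left, inner_sub_right, h]
    congr 2
    ring
  have c : UniformContinuous fun p : Set.range k => y p.2.choose :=
    (Isometry.of_dist_eq fun p q => by
      rw [e, p.2.choose_spec, q.2.choose_spec, Subtype.dist_eq]).uniformContinuous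
  have a : ∀ i, Dense.extend d (fun p => y p.2.choose) (k i) = y i := fun i =>
    (Dense.extend_of_ind d c ⟨_, i, rfl⟩).trans (dist_eq_zero.1 ((e _ _).trans
      (dist_eq_zero.2 (Set.mem_range_self (f := k) i).choose_spec)))
  have t := (Dense.uniformContinuous_extend d c).continuous
  exact ⟨_, t, fun a' b => d.induction_on₂ (isClosed_eq (by fun_prop) (by fun_prop))
    (fun i j => by rw [a, a, h]) a' b, a⟩

namespace U1

variable (u : U1 V)
include u

theorem ho_map {x y : H} (h : Ho V x y) (t : ℝ) : Ho V (V t x) (V t y) := by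
  obtain ⟨φ, h1, h2, ⟨C, h3⟩, h4⟩ := h
  exact ⟨fun z => V t (φ z), (V t).differentiable.comp_differentiableOn h1,
    (V t).continuous.comp_continuousOn h2, ⟨C, fun z hz => (u.nrm t _).trans_le (h3 z hz)⟩,
    fun s => by simp only [h4 s, ← u.add, add_comm t, and_self]⟩

theorem ho_gs (hn : 0 < n) {x y : H} (h : Ho V x y) (w : H) :
    inner ℂ (Gs n (fun s => V s w) 0) y = inner ℂ (Gs n (fun s => V s w) (-(I / 2))) x := by
  obtain ⟨φ, h1, h2, ⟨C, h3⟩, h4⟩ := h
  obtain ⟨K, r, hK, hr, b⟩ := (u.eg w).gbd hn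
  have C0 : 0 ≤ C := (norm_nonneg _).trans (h3 _ (real_mem 0))
  have d := ((u.eg w).gdiff hn).comp (differentiable_id.sub_const (I / 2))
  have k := uniqE (F := fun τ => inner ℂ (Gs n (fun s => V s w) (conj τ - I / 2)) (φ τ) -
      inner ℂ (Gs n (fun s => V s w) (-(I / 2))) x)
    (C := K * C + ‖inner ℂ (Gs n (fun s => V s w) (-(I / 2))) x‖) (r := r)
    (fun z hz => ((diff_inn (d _) (h1.differentiableAt (isOpen_So.mem_nhds hz))).sub_const
      _).differentiableWithinAt)
    (((d.continuous.comp Complex.continuous_conj).continuousOn.inner h2).sub continuousOn_const)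
    (by positivity) (fun z hz => by
      refine (norm_sub_le _ _).trans ?_
      have e : 1 ≤ Real.exp (r * |z.re|) := Real.one_le_exp (by positivity)
      have q := (norm_inner_le_norm (𝕜 := ℂ) _ _).trans (mul_le_mul (b (conj z - I / 2) (by
        simp [abs_le]; constructor <;> linarith [hz.1, hz.2])) (h3 _ hz) (norm_nonneg _)
        (by positivity))
      rw [show (conj z - I / 2).re = z.re by simp] at q
      nlinarith [norm_nonneg (inner ℂ (Gs n (fun s => V s w) (-(I / 2))) x)]) (fun t => by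
      simp only [(h4 t).1, Complex.conj_ofReal]
      rw [sub_eq_neg_add (t : ℂ), u.gsh hn, u.inn, sub_self]) (low_mem 0)
  simp only [(h4 0).2, u.zero, sub_eq_zero] at k
  rw [← k]
  congr 2
  simp [map_div₀, map_ofNat, neg_div]

theorem gs_inn (hn : 0 < n) {p q a b : H} (h : ∀ s, inner ℂ (V s p) a = inner ℂ (V s q) b) (σ : ℂ) :
    inner ℂ (Gs n (fun s => V s p) σ) a = inner ℂ (Gs n (fun s => V s q) σ) b := by
  rw [← Complex.conj_conj σ, (u.eg p).inn' hn, (u.eg q).inn' hn]
  simp only [h]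

theorem gs_adj (hn : 0 < n) (p q : H) (σ : ℂ) : inner ℂ (Gs n (fun s => V s p) σ) q =
    inner ℂ p (Gs n (fun s => V s q) (-conj σ)) := by
  rw [← Complex.conj_conj σ, (u.eg p).inn' hn, (u.eg q).inn hn, ← integral_neg_eq_self]
  simp only [u.adj, Complex.conj_conj]
  congr! 2 with s
  simp only [gs]
  congr 3
  push_cast
  ring

theorem gs_lim {p q a b : H} (h : ∀ n : ℝ, 0 < n → inner ℂ (Gs n (fun s => V s p) 0) a =
    inner ℂ (Gs n (fun s => V s q) 0) b) : inner ℂ p a = inner ℂ q b :=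
  tendsto_nhds_unique ((u.apx p).inner tendsto_const_nhds) (((u.apx q).inner
    tendsto_const_nhds).congr fun k => by rw [inner_smul_left, inner_smul_left, h _ (by positivity)])

/-- **two cores** -/
theorem tri {ι κ : Type*} {x x' y : ι → H} {z z' : κ → H} (dx : DenseRange x)
    (dx' : DenseRange x') (dz : DenseRange z) (ho : ∀ i, Ho V (x i) (y i))
    (hy : ∀ i j, inner ℂ (y i) (y j) = inner ℂ (x' j) (x' i))
    (ix : ∀ t i, ∃ j, x j = V t (x i) ∧ x' j = V t (x' i))
    (iz : ∀ t i, ∃ j, z j = V t (z i) ∧ z' j = V t (z' i))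
    (h3 : ∀ i j, inner ℂ (x' i) (z j) = inner ℂ (z' j) (x i)) {ξ ξ' η η' : H}
    (h1 : ∀ j, inner ℂ (z' j) ξ = inner ℂ ξ' (z j))
    (h2 : ∀ i, inner ℂ (x' i) η = inner ℂ η' (x i)) : inner ℂ ξ' η = inner ℂ η' ξ := by
  obtain ⟨T, c, a, e⟩ := ex_anti dx' hy
  have tv : ∀ t p, T (V t p) = V t (T p) := fun t p => dx'.induction_on p
    (isClosed_eq (by fun_prop) (by fun_prop)) fun i => by
      obtain ⟨j, k, k'⟩ := ix t i
      rw [← k', e, e]
      exact ext_inner_left ℂ fun w => u.gs_lim fun n hn => by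
        rw [u.ho_gs hn (ho j), k, u.ho_gs hn (u.ho_map (ho i) t)]
  have s1 : ∀ {n : ℝ}, 0 < n → ∀ {η η'}, (∀ i, inner ℂ (x' i) η = inner ℂ η' (x i)) →
      Gs n (fun s => V s (T η)) (-(I / 2)) = Gs n (fun s => V s η') 0 := fun hn η η' h =>
    dx.eq_of_inner_left ℂ fun i => (u.ho_gs hn (ho i) _).symm.trans (u.gs_inn hn (fun s => by
      obtain ⟨j, k, k'⟩ := ix (-s) i
      rw [← neg_neg s, u.adj, u.adj, ← e, ← tv, a, ← k', h, k]) _)
  rw [← a]
  refine (u.gs_lim fun n hn => ?_).symm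
  rw [← s1 hn h2, u.gs_adj hn, u.gs_adj hn]
  refine dz.induction_on (p := fun η => inner ℂ (T η) _ = inner ℂ (T η) _) η
    (isClosed_eq (by fun_prop) (by fun_prop)) fun j => ?_
  rw [← u.gs_adj hn, ← u.gs_adj hn, s1 hn fun i => h3 i j]
  refine u.gs_inn hn (fun s => ?_) _
  obtain ⟨l, k, k'⟩ := iz s j
  rw [← tv, a, ← k, ← k', h1]

end U1

end

end Vale.Agent.N352.Rn
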