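import Vale.Agent.N352.Bo.Top
import Vale.Agent.N352.H.Bd

/-!
# N352, block Bo: the Borchers class is a conformal theory
-/

namespace Vale.Agent.N352.Bo

open P352.GF

universe u

variable {H : Type u} [NormedAddCommGroup H] [InnerProductSpace ℂ H] [CompleteSpace H]
  {K : Dh.Frame H} {S : Dh.Theory K} {N : Set V → VonNeumannAlgebra H} {T : Ix → Ix → Fld H}

/-- **the Borchers class is conformal** -/
theorem bor_conf (h : Dh.Hyp S T N) :
    ∃ (R : Dh.Theory K) (t : Ix → Ix → Fld H), Dh.Bor S R ∧ Dh.Stress R t ∧ Dh.PGen R t ∧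
      Dh.Chg S R T t ∧ (∃ U, Dh.Conf R U t) ∧ ∃ P : Dh.Theory K, P.dom = R.dom ∧ Dh.Ext S P N ∧
        Dh.Fin' P ∧ (∀ v ∈ P.dom, Dh.Cyc P v) ∧ (∃ N', Dh.Net K N' ∧ Dh.Aff P N') ∧
        ∀ A, P.fld A → R.fld A ∧ Dh.Desc P t A :=
  N352.H.bor_conf h fun _ e _ _ _ _ r r' t t' s _ m => rel_loc e h.finite r r' t t' s m

/-- **the theorem** -/
theorem thm (H : Type u) [NormedAddCommGroup H] [InnerProductSpace ℂ H] [CompleteSpace H] :
    Dh.Thm H := by
  refine ⟨fun K S T N h => ?_, (N352.H.main H).conf, (N352.H.main H).cnt⟩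
  obtain ⟨A, a, s, P, S', t, e, g, b, f, c, n, z⟩ := N352.H.ext5 h
  obtain ⟨R, d, k, i⟩ := borchers e.mem h.finite
  have ⟨x, y⟩ := z R d i
  exact ⟨R, t, ⟨k, N352.H.stress_bor x k, x.poincare y, N352.H.chg s (fun m n => (a.1 m n).1) g
    x.same (fun v c => d ▸ cyc_mem e.mem c), _, x⟩, P, S', e, f, n,
    fun v => d ▸ ⟨c v, cyc_dom⟩, d.symm, (z P rfl fun _ p => p).1⟩

end Vale.Agent.N352.Bo
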