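import Vale.Agent.N352.Bo.Wd

/-!
# N352, block Bo: operators that are localized in opposite wedges commute
-/

set_option linter.all false

open Filter Topology
open scoped ComplexConjugate

namespace Vale.Agent.N352.Rn

open Vale.Agent.P352 Vale.Agent.P352.GF Vale.Agent.P352.BW Vale.Agent.P352.H246
open Vale.Agent.P352.H496 Vale.Agent.P352.H755 Vale.Agent.P352.H15
open Vale.Agent.P352X Vale.Agent.P352X.EB E P352W.Net P352R.Tw
open UniformSpace (Completion)
open Complex (I)

noncomputable section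

section klein

variable {R : Type*} [Ring R] [Algebra ℂ R] {g X : R} {e : ℂ}

/-- the Klein operator -/
def ku (e : ℂ) (g : R) : R := ((1 + e * I) / 2 : ℂ) • 1 + ((1 - e * I) / 2 : ℂ) • g

theorem ku_conj (h : g * g = 1) (k : e * e = 1) (X : R) : ku e g * X * ku (-e) g =
    (1 / 2 : ℂ) • (X + g * X * g) + (e * I / 2 : ℂ) • ((X - g * X * g) * g) := by
  have i : e * I * (e * I) = -1 := by linear_combination (I * I) * k + Complex.I_mul_I
  simp only [ku, add_mul, mul_add, sub_mul, smul_mul_assoc, mul_smul_comm, one_mul, mul_one,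
    mul_assoc, h]
  match_scalars <;> first
    | linear_combination (1 / 4 : ℂ) * i
    | linear_combination (-1 / 4 : ℂ) * i

theorem ku_ev (h : g * g = 1) (k : e * e = 1) (p : X * g = g * X) : ku e g * X * ku (-e) g = X := by
  rw [ku_conj h k, mul_assoc, p, ← mul_assoc, h, one_mul, sub_self, zero_mul]
  module

theorem ku_od (h : g * g = 1) (k : e * e = 1) (p : X * g = -(g * X)) :
    ku e g * X * ku (-e) g = (e * I) • (X * g) := by
  rw [ku_conj h k, mul_assoc, p, mul_neg, ← mul_assoc, h, one_mul, sub_neg_eq_add, add_mul, p]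
  module

end klein

universe u

variable {D : Type u} [NormedAddCommGroup D] [InnerProductSpace ℂ D] {E : Type*}
  [NormedAddCommGroup E] [InnerProductSpace ℂ E] {a b y : V} {O : Set V}
  {C C' Z Z' : Module.End ℂ E}

/-- the fields of `c`, extended to the domain `E` -/
structure Xd (c : Cf D) (κ : E →ₗᵢ[ℂ] Completion D) (k : D → E) (g : Module.End ℂ E)
    (L : Set V → Set (Module.End ℂ E)) : Prop where
  m : MfAll c.Q
  cv : ∀ L a, IsLor L → H246.Cov c.Q 1 L a
  hk : ∀ v, κ (k v) = v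
  hg : ∀ x, κ (g x) = c.Γ (κ x)
  ex : ∀ O B f, c.Q.fld B → In O f → ∃ X ∈ Algebra.adjoin ℂ (L O), (∃ X', Ad X X') ∧
    ∀ v, X (k v) = k (B f v)

namespace Xd

variable {c : Cf D} {κ : E →ₗᵢ[ℂ] Completion D} {k : D → E} {g : Module.End ℂ E}
  {L : Set V → Set (Module.End ℂ E)} (h : Xd c κ k g L)
include h

theorem g2 : g * g = 1 := LinearMap.ext fun x => κ.injective (by
  rw [Module.End.mul_apply, h.hg, h.hg]
  exact DFunLike.congr_fun (SGx.g2 c) _)

theorem kz (e x) : κ (ku e g x) = kz e c.Γ (κ x) := by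
  simp only [ku, P352R.Tw.kz, LinearMap.add_apply, LinearMap.smul_apply, map_add, map_smul, h.hg,
    ContinuousLinearMap.add_apply, ContinuousLinearMap.smul_apply]
  rfl

theorem ad : Ad (ku (-1) g) (ku 1 g) := fun v w => by
  rw [← κ.inner_map_map, ← κ.inner_map_map v, h.kz, h.kz, ← kz_star (SGx.gs c),
    ContinuousLinearMap.star_eq_adjoint, ContinuousLinearMap.adjoint_inner_left]

theorem uu : ku 1 g * ku (-1) g = 1 := by simpa using ku_ev h.g2 (one_mul 1) (Commute.one_left g).eq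

theorem uv : ku 1 g (k c.Q.vac) = k c.Q.vac := κ.injective (by
  rw [h.kz, h.hk]
  exact kz_fix (SGx.gv c))

theorem br {A A' : D → D} (p : Al c.Q O A A') : ∃ X ∈ Algebra.adjoin ℂ (L O), ∃ X', Ad X X' ∧
    (∀ v, X (k v) = k (A v)) ∧ ∀ v, X' (k v) = k (A' v) := by
  suffices s : ∃ X ∈ Algebra.adjoin ℂ (L O), (∃ X', Ad X X') ∧ ∀ v, X (k v) = k (A v) by
    obtain ⟨X, i, ⟨X', d⟩, e⟩ := s
    refine ⟨X, i, X', d, e, fun v => κ.injective (Completion.denseRange_coe.eq_of_inner_right ℂ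
      fun w => ?_)⟩
    rw [← h.hk w, κ.inner_map_map, ← d, e, ← κ.inner_map_map, h.hk, h.hk, h.hk, h.hk,
      Completion.inner_coe, Completion.inner_coe, p.adj]
  induction p with
  | one => exact ⟨1, one_mem _, ⟨1, fun _ _ => rfl⟩, fun _ => rfl⟩
  | add _ _ _ _ _ _ p q =>
    obtain ⟨X, i, ⟨X', d⟩, e⟩ := p
    obtain ⟨Y, i', ⟨Y', d'⟩, e'⟩ := q
    exact ⟨X + Y, add_mem i i', ⟨X' + Y', fun v w => by
      simp only [LinearMap.add_apply, inner_add_left, inner_add_right, d v w, d' v w]⟩,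
      fun v => κ.injective (by
        simp only [LinearMap.add_apply, e, e', map_add, h.hk, Completion.coe_add])⟩
  | smul z _ _ _ p =>
    obtain ⟨X, i, ⟨X', d⟩, e⟩ := p
    exact ⟨z • X, Subalgebra.smul_mem _ i z, ⟨conj z • X', fun v w => by
      simp only [LinearMap.smul_apply, inner_smul_left, inner_smul_right, d v w]⟩,
      fun v => κ.injective (by
        simp only [LinearMap.smul_apply, e, map_smul, h.hk, Completion.coe_smul])⟩
  | fld B _ f _ _ s _ _ t _ p =>
    obtain ⟨X, i, ⟨X', d⟩, e⟩ := p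
    obtain ⟨Y, i', ⟨Y', d'⟩, e'⟩ := h.ex O B f s t
    exact ⟨Y * X, mul_mem i' i, ⟨_, d'.mul d⟩, fun v => by rw [Module.End.mul_apply, e, e']⟩

theorem twc (p : ∀ Y ∈ L O, Commute C (ku (-1) g * Y * ku 1 g)) {Y}
    (i : Y ∈ Algebra.adjoin ℂ (L O)) : Commute C (ku (-1) g * Y * ku 1 g) := by
  induction i using Algebra.adjoin_induction with
  | mem Y i => exact p Y i
  | algebraMap r =>
    have := ku_ev h.g2 (e := -1) (by norm_num) (Algebra.commutes r g)
    rw [neg_neg] at this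
    rw [this]
    exact (Algebra.commutes r C).symm
  | add _ _ _ _ p q => simpa only [mul_add, add_mul] using p.add_right q
  | mul X Y _ _ p q =>
    have := p.mul_right q
    rwa [mul_assoc, ← mul_assoc (ku 1 g), ← mul_assoc (ku 1 g), h.uu, one_mul, ← mul_assoc,
      mul_assoc _ X] at this

theorem lv0 (d : Ad Z Z') (p : ∀ X ∈ L O, Commute Z X) :
    Lv c 1 O (κ (Z (k c.Q.vac))) (κ (Z' (k c.Q.vac))) := fun A A' q => by
  obtain ⟨X, i, X', d', e, e'⟩ := h.br q
  rw [ContinuousLinearMap.one_apply, ContinuousLinearMap.one_apply, ← h.hk, ← h.hk (A _), ← e, ← e',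
    κ.inner_map_map, κ.inner_map_map, d'.symm, d.symm]
  exact congrArg _ (DFunLike.congr_fun
    (Algebra.commute_of_mem_adjoin_of_forall_mem_commute i p).symm.eq _)

theorem tw_vac {A : D → D} {X : Module.End ℂ E} (e : ∀ v, X (k v) = k (A v)) :
    κ ((ku (-1) g * X * ku 1 g) (k c.Q.vac)) = kt c (A c.Q.vac : D) := by
  rw [Module.End.mul_apply, Module.End.mul_apply, h.uv, e, h.kz, h.hk]

theorem lv1 (d : Ad C C') (p : ∀ Y ∈ L O, Commute C (ku (-1) g * Y * ku 1 g)) :
    Lv c (kt c) O (κ (C (k c.Q.vac))) (κ (C' (k c.Q.vac))) := fun A A' q => by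
  obtain ⟨X, i, X', d', e, e'⟩ := h.br q
  have w := (h.ad.mul d').mul h.ad.symm
  rw [← mul_assoc] at w
  rw [← h.tw_vac e, ← h.tw_vac e', κ.inner_map_map, κ.inner_map_map, w.symm, d.symm]
  exact congrArg _ (DFunLike.congr_fun (h.twc p i).symm.eq _)

/-- **operators that are localized in opposite wedges commute** -/
theorem com (ha : IsNull a) (hb : IsNull b) (hab : GF.mdot a b = 1)
    (l : ∀ X ∈ L (Wdg a b y), ∀ Y ∈ L (Wdg b a y), Commute X (ku (-1) g * Y * ku 1 g))
    (d : Ad C C') (p : ∀ Y ∈ L (Wdg b a y), Commute C (ku (-1) g * Y * ku 1 g))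
    (d' : Ad Z Z') (q : ∀ X ∈ L (Wdg a b y), Commute Z X) : Commute C Z := by
  have l' := fun Y i X j => (h.twc (l X j) (Y := Y) i).symm
  have w := fun {X X'} (d : Ad X X') => mul_assoc (ku (-1) g) X' _ ▸ (h.ad.mul d).mul h.ad.symm
  have s : Function.Surjective (kt c) := fun z => ⟨star (kt c) z, DFunLike.congr_fun cuk.1.2 z⟩
  refine LinearMap.ext fun v => ext_inner_left ℂ fun x => ?_
  rw [← (d.mul d').symm, ← (d'.mul d).symm]
  refine congrArg (inner ℂ · v) (κ.injective ((s.denseRange.comp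
    (den c.Q hb ha (by rwa [md_comm]) y) (kt c).continuous).eq_of_inner_left ℂ fun B => ?_))
  obtain ⟨Y, i, Y', e, r, -⟩ := h.br B.2
  rw [Function.comp_apply, ← h.tw_vac r, κ.inner_map_map, κ.inner_map_map, (d.mul d').symm,
    (d'.mul d).symm]
  refine congrArg _ (κ.injective ((den c.Q ha hb hab y).eq_of_inner_right ℂ fun A => ?_))
  obtain ⟨X0, j0, X1, e0, r0, r1⟩ := h.br A.2.star
  have t := tri h.m h.cv ha hb hab (fun B B' z => by
      obtain ⟨Y, i, Y', e, r, r'⟩ := h.br z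
      rw [← h.tw_vac r, ← h.tw_vac r']
      exact h.lv0 (w e) (l' Y i))
    (h.lv1 (e0.mul d) fun Y i => (Algebra.commute_of_mem_adjoin_of_forall_mem_commute j0
      (l' Y (Algebra.subset_adjoin i))).symm.mul_left (p Y i))
    (h.lv0 (d'.mul (w e)) fun X j => (q X j).mul_left (l' Y i X j))
  rw [κ.inner_map_map, κ.inner_map_map, (e0.mul d).symm, (d'.mul (w e)).symm] at t
  rw [← h.hk, ← r1, κ.inner_map_map, κ.inner_map_map, e0.symm, e0.symm]
  have c1 := Algebra.commute_of_mem_adjoin_of_forall_mem_commute j0 (l' Y i)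
  have c2 := Algebra.commute_of_mem_adjoin_of_forall_mem_commute j0 q
  have c3 := h.twc p i
  generalize ku (-1) g * Y * ku 1 g = T at t c1 c3
  refine t.trans (congrArg _ (DFunLike.congr_fun (show Z * T * (X0 * C) = X0 * (Z * C * T) from ?_) _))
  rw [mul_assoc, ← mul_assoc T, c1.eq, mul_assoc X0, ← c3.eq, ← mul_assoc, c2.eq]
  simp only [mul_assoc]

end Xd

end

end Vale.Agent.N352.Rn
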