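import Vale.Agent.N352.H.Top
import Vale.Agent.N352.DefB

/-!
# N352, block Bo: relatively local fields
-/

set_option linter.all false

open Filter Topology
open scoped ComplexConjugate

namespace Vale.Agent.N352.Bo

open P352.GF N352.H

noncomputable section

variable {H : Type*} [NormedAddCommGroup H] [InnerProductSpace ℂ H] [CompleteSpace H]
  {K : Dh.Frame H} {Q P : Dh.Theory K} {A A' C C' : Fld H} {f g : Fn} {v w x : H} {c : ℂ}
  {D : Submodule ℂ H}

theorem l1 : Dh.IsLor Dh.one := lor1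

theorem tb (t : IsTest f) : IsTest (Dh.bar f) := t_bar t

theorem bb (f : Fn) : Dh.bar (Dh.bar f) = f := P352.H246.bar_bar f

theorem cyc_om : Dh.Cyc Q K.Ω := fun _ m => m.1

theorem cyc_fld (s : Q.fld A) (t : IsTest f) (c : Dh.Cyc Q v) : Dh.Cyc Q (A f v) :=
  fun S m => m.2 A f s t v (c S m)

/-- the vectors generated by the fields -/
def cyS (Q : Dh.Theory K) : Submodule ℂ H where
  carrier := {v | Dh.Cyc Q v}
  add_mem' a b S m := S.add_mem (a S m) (b S m)
  zero_mem' S _ := S.zero_mem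
  smul_mem' c _ a S m := S.smul_mem c (a S m)

theorem cyc_dom (c : Dh.Cyc Q v) : v ∈ Q.dom := c _ Q.inv

theorem ext_C (h : ∀ w, Dh.Cyc Q w → inner ℂ w v = inner ℂ w x) : v = x :=
  (Q.cyclic (cyS Q) ⟨cyc_om, fun _ _ s t _ => cyc_fld s t⟩).eq_of_inner_right ℂ h

theorem cyc_gam (c : Dh.Cyc Q v) : Dh.Cyc Q (K.Γ v) :=
  (c (cyS Q ⊓ (cyS Q).comap K.Γ.toLinearMap) ⟨⟨cyc_om, show Dh.Cyc Q (K.Γ _) from
    K.even.symm ▸ cyc_om⟩, fun A f s t v m => ⟨cyc_fld s t m.1, by
      obtain ⟨B, C, b, c, p, q, e⟩ := Q.split A s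
      have n := cyc_dom m.1
      show K.Γ _ ∈ cyS Q
      rw [e f t v n, map_add, ← one_smul ℂ (K.Γ (B f v)), ← p.1 f t v n, ← neg_neg (K.Γ (C f v)),
        ← neg_one_smul ℂ (K.Γ _), ← q.1 f t v n]
      exact add_mem (cyc_fld b t m.2) (neg_mem (cyc_fld c t m.2))⟩⟩).2

theorem adj_symm (a : Dh.Adj D A A') : Dh.Adj D A' A := fun f t v m w n => by
  have := a _ (tb t) w n v m
  rw [bb] at this
  rw [← inner_conj_symm, ← this, inner_conj_symm]

theorem adj_par (a : Dh.Adj Q.dom A A') (p : Dh.Par K Q.dom c A) (k : c * conj c = 1) :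
    Dh.Par K Q.dom c A' := ⟨fun f t w n => ext_D Q fun v m => by
  have b := adj_symm a f t
  rw [← inner_conj_symm, b _ (Q.gam w n) v m, inner_smul_right, ← gam_inner, ← inner_conj_symm (K.Γ v),
    b w n _ (Q.gam v m), p.1 (Dh.bar f) (tb t) v m, inner_smul_right, map_mul, ← mul_assoc, k,
    one_mul, gam_inner]⟩

theorem adj_lc (a : Dh.Adj P.dom A A') (t : IsTest f) (m : v ∈ P.dom) (n : w ∈ P.dom) (c d : ℂ) :
    A f (c • v + d • w) = c • A f v + d • A f w := ext_D P fun z o => by
  have b := fun y i => adj_symm a (Dh.bar f) (tb t) z o y i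
  simp only [bb] at b
  simp only [inner_add_right, inner_smul_right, ← b _ (add_mem (P.dom.smul_mem c m)
    (P.dom.smul_mem d n)), ← b v m, ← b w n]

theorem u_lc (S : Dh.Theory K) {s L} (hs : 0 < s) (hL : IsLor L) (a) (c d : ℂ) (v w : H) :
    K.U s L a (c • v + d • w) = c • K.U s L a v + d • K.U s L a w := ext_U S hs hL a fun z _ => by
  simp only [inner_add_right, inner_smul_right, K.unitary s L a _ _ hs hL]

section rel

variable (r : Dh.RelLoc Q P.dom C)
include r

theorem rel_lc (r' : Dh.RelLoc Q P.dom C') (c d : ℂ) :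
    Dh.RelLoc Q P.dom fun f v => c • C f v + d • C' f v where
  inv f t v m := add_mem (P.dom.smul_mem c (r.1 f t v m)) (P.dom.smul_mem d (r'.1 f t v m))
  lin f g z s t v m := by
    rw [r.2 f g z s t v m, r'.2 f g z s t v m]
    module
  cont v m w n := by
    simp only [inner_add_right, inner_smul_right]
    exact (continuous_const.mul (r.3 v m w n)).add (continuous_const.mul (r'.3 v m w n))
  adj := have ⟨X, i, a⟩ := r.4; have ⟨Y, j, b⟩ := r'.4
    ⟨fun f v => conj c • X f v + conj d • Y f v, fun f t v m =>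
      add_mem (P.dom.smul_mem _ (i f t v m)) (P.dom.smul_mem _ (j f t v m)), fun f t v m w n => by
        simp only [inner_add_left, inner_add_right, inner_smul_left, inner_smul_right,
          a f t v m w n, b f t v m w n]⟩
  transl a f t v m := (congrArg₂ _ (congrArg _ (r.5 a f t v m)) (congrArg _ (r'.5 a f t v m))).trans
    (u_lc P one_pos l1 a c d _ _).symm
  loc A A' f g v w s a t t' p x y := by
    have k := r.6 A A' f g v w s a t t' p x y
    have k' := r'.6 A A' f g v w s a t t' p x y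
    exact ⟨fun e => by simp only [inner_add_right, inner_smul_right, k.1 e, k'.1 e],
      fun e => by simp only [inner_add_right, inner_smul_right, k.2 e, k'.2 e, map_add, map_smul]⟩

variable (e : ∀ B, Q.fld B → ∃ C, P.fld C ∧ Dh.Agr Q B C)

omit r in
include e in
theorem cyc_mem (c : Dh.Cyc Q v) : v ∈ P.dom :=
  (c (cyS Q ⊓ P.dom) ⟨⟨cyc_om, P.inv.1⟩, fun A f s t v m => ⟨cyc_fld s t m.1, by
    obtain ⟨C, p, a⟩ := e A s
    rw [← a f v t m.1]
    exact P.inv.2 C f p t v m.2⟩⟩).2

include e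

theorem rel_gam : Dh.RelLoc Q P.dom fun f v => K.Γ (C f (K.Γ v)) where
  inv f t v m := P.gam _ (r.1 f t _ (P.gam v m))
  lin f g z s t v m := by rw [r.2 f g z s t _ (P.gam v m), map_add, map_smul]
  cont v m w n := by
    simp only [← gam_inner]
    exact r.3 _ (P.gam v m) _ (P.gam w n)
  adj := have ⟨X, i, a⟩ := r.4
    ⟨fun f v => K.Γ (X f (K.Γ v)), fun f t v m => P.gam _ (i f t _ (P.gam v m)),
      fun f t v m w n => by rw [gam_inner, a f t _ (P.gam v m) _ (P.gam w n), gam_inner]⟩
  transl a f t v m := by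
    rw [← K.comm _ _ _ _ one_pos l1, r.5 a f t _ (P.gam v m), K.comm _ _ _ _ one_pos l1]
  loc A A' f g v w s a t t' p x y := by
    have k := r.6 A A' f g _ _ s a t t' p (cyc_gam x) (cyc_gam y)
    obtain ⟨X, -, b⟩ := r.4
    have n := adj_lc b t (cyc_mem e (cyc_fld s t' x)) P.dom.zero_mem (-1) 0
    refine ⟨fun q => ?_, fun q => ?_⟩
    · have := k.1 q
      rwa [(adj_par a q (by simp)).1 (Dh.bar g) (tb t') w (cyc_dom y), q.1 g t' v (cyc_dom x),
        one_smul, one_smul, gam_inner, gam_inner] at this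
    have := k.2 q
    rw [(adj_par a q (by simp)).1 (Dh.bar g) (tb t') w (cyc_dom y), q.1 g t' v (cyc_dom x),
      map_smul, gam_gam, gam_inner K w, gam_gam] at this
    simp only [zero_smul, add_zero] at n
    rw [n] at this
    simpa only [neg_one_smul, inner_neg_left, inner_neg_right, neg_inj, gam_gam, gam_inner]
      using this

theorem rel_adj (i : ∀ f, IsTest f → ∀ v ∈ P.dom, C' f v ∈ P.dom) (a : Dh.Adj P.dom C C') :
    Dh.RelLoc Q P.dom C' where
  inv := i
  lin f g z s t v m := ext_D P fun w n => by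
    have b := fun f t => adj_symm a f t v m w n
    rw [inner_add_right, inner_smul_right, ← inner_conj_symm, ← inner_conj_symm w,
      ← inner_conj_symm w, b _ (t_lin z s t), b f s, b g t,
      show (Dh.bar fun x => f x + z * g x) = fun x => Dh.bar f x + conj z * Dh.bar g x from
        funext fun _ => by simp [Dh.bar], r.2 _ _ _ (tb s) (tb t) w n]
    simp
  cont v m w n := by
    have b := fun g : Sch => adj_symm a (ev g) ⟨g, rfl⟩ v m w n
    exact (Complex.continuous_conj.comp ((r.3 w n v m).comp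
      (SchwartzMap.postcompCLM (Complex.conjCLE : ℂ →L[ℝ] ℂ)).continuous)).congr fun g =>
        (congrArg conj (b g).symm).trans (inner_conj_symm _ _)
  adj := ⟨C, r.1, adj_symm a⟩
  transl y f t v m := ext_U P one_pos l1 y fun z n => by
    have b := fun f t v m z n => adj_symm a f t v m z n
    rw [← inner_conj_symm, b f t _ (P.rep _ _ y one_pos l1 v m) _ (P.rep _ _ y one_pos l1 z n)]
    refine (congrArg (fun x => conj (inner ℂ _ x)) (r.5 y _ (tb t) z n)).trans ?_
    refine (congrArg conj ((K.unitary _ _ y _ _ one_pos l1).trans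
      (b _ (t_sim one_pos l1 y t) v m z n).symm)).trans ?_
    exact (inner_conj_symm _ _).trans (K.unitary _ _ y _ _ one_pos l1).symm
  loc A A' f g v w s d t t' p x y := by
    obtain ⟨B, s', d'⟩ := Q.adj A s
    have b := fun v m w n => adj_symm a f t v m w n
    have p' : Dh.Sep (Dh.bar f) (Dh.bar g) := by
      rwa [Dh.Sep, show tsupport (Dh.bar f) = _ from P352X.Ap.tsupport_bar f,
        show tsupport (Dh.bar g) = _ from P352X.Ap.tsupport_bar g]
    have k := fun v w => r.6 B A _ _ w v s' (adj_symm d') (tb t) (tb t') p'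
    have u := cyc_mem e (cyc_fld s' (tb t') y)
    have u' := cyc_mem e (cyc_fld s t' x)
    simp only [bb] at k
    rw [adj_eq Q d d' (f := Dh.bar g) (tb t') w (cyc_dom y), ← inner_conj_symm,
      b _ (cyc_mem e x) _ u]
    refine ⟨fun q => ?_, fun q => ?_⟩
    · rw [← inner_conj_symm w, b _ u' _ (cyc_mem e y)]
      exact congrArg _ ((k v w y x).1 (adj_par d' q (by simp))).symm
    have q' := adj_par d' q (by simp)
    have := (k _ _ (cyc_gam y) (cyc_gam x)).2 q'
    have n := adj_lc a (tb t) u P.dom.zero_mem (-1) 0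
    simp only [zero_smul, add_zero] at n
    rw [q.1 g t' v (cyc_dom x), q'.1 (Dh.bar g) (tb t') w (cyc_dom y), map_smul, gam_gam,
      gam_inner K v, gam_gam, n, inner_smul_left, inner_smul_right] at this
    rw [← gam_inner, ← inner_conj_symm (K.Γ w), b _ (P.gam _ u') _ (P.gam _ (cyc_mem e y))]
    exact congrArg _ (by simpa using this.symm)

omit r

theorem ext_adj (a : Dh.Adj Q.dom A A') (p : P.fld C) (z : Dh.Agr Q A C) (t : IsTest g)
    (y : Dh.Cyc Q w) (m : x ∈ P.dom) : inner ℂ (A' (Dh.bar g) w) x = inner ℂ w (C g x) := by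
  obtain ⟨C', -, b⟩ := P.adj C p
  rw [show A' (Dh.bar g) w = C' (Dh.bar g) w from ext_C fun u k => by
    rw [← a g t u (cyc_dom k) w (cyc_dom y), ← b g t u (cyc_mem e k) w (cyc_mem e y), z g u t k],
    ← inner_conj_symm, ← b g t x m w (cyc_mem e y), inner_conj_symm]

theorem ext_par (s : Q.fld A) (p : P.fld C) (z : Dh.Agr Q A C) (q : Dh.Par K Q.dom c A)
    (k : c * conj c = 1) : Dh.Par K P.dom c C := ⟨fun f t x m => ext_C fun w y => by
  obtain ⟨B, -, a⟩ := Q.adj A s
  rw [← ext_adj e a p z t y (P.gam x m), inner_smul_right, ← gam_inner K w,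
    ← ext_adj e a p z t (cyc_gam y) m, (adj_par a q k).1 (Dh.bar f) (tb t) w (cyc_dom y),
    inner_smul_left, ← mul_assoc, k, one_mul, gam_inner]⟩

theorem rel_of (p : P.fld C) : Dh.RelLoc Q P.dom C where
  inv f t := P.inv.2 C f p t
  lin f g c := P.lin C f g c p
  cont := P.cont C p
  adj := have ⟨B, b, a⟩ := P.adj C p; ⟨B, fun f t => P.inv.2 B f b t, a⟩
  transl a f := P.transl C a f p
  loc A A' f g v w s a t t' o x y := by
    obtain ⟨B, b, z⟩ := e A s
    have m := cyc_mem e x
    rw [ext_adj e a b z t' y (P.inv.2 C f p t v m), ← z g v t' x]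
    refine ⟨fun q => congrArg _ ((P.loc B C g f b p t' t (P352X.Ap.sep_symm o) v m).1
      (ext_par e s b z q (by simp))), fun q => congrArg _ ?_⟩
    obtain ⟨X, Y, i, j, k, l, u⟩ := P.split C p
    obtain ⟨B', -, d⟩ := P.adj B b
    have n := P.inv.2 B g b t' v m
    have := adj_lc d t' (P.inv.2 X f i t v m) (P.inv.2 Y f j t v m) 1 1
    simp only [one_smul] at this
    rw [u f t v m, u f t _ (P.gam _ n), k.1 f t _ n, l.1 f t _ n, this,
      (P.loc X B f g i b t t' o v m).1 k,
      (P.loc Y B f g j b t t' o v m).2 l (ext_par e s b z q (by simp))]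
    simp [gam_gam]

end rel

end

end Vale.Agent.N352.Bo
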