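import Vale.Agent.N352.Bo.Top
import Vale.Agent.N352.H.Bd

/-!
# N352, block Bo: the theorem
-/

namespace Vale.Agent.N352.H

variable (H : Type*) [NormedAddCommGroup H] [InnerProductSpace ℂ H] [CompleteSpace H]

/-- **the theorem** -/
theorem thm : Dh.Thm H where
  inv K S T N h := by
    obtain ⟨A, a, s, P, S', t, e, g, -, f, c, n, z⟩ := ext5 h
    obtain ⟨R, d, k, i⟩ := bor_of e.mem fun _ _ _ _ r r' t t' s _ m =>
      Bo.rel_loc e.mem h.finite r r' t t' s m
    have ⟨x, y⟩ := z R d i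
    exact ⟨R, t, ⟨k, stress_bor x k, x.poincare y, chg s (fun m n => (a.1 m n).1) g x.same
      (fun v c => d ▸ cyc_dom e.mem c), _, x⟩, P, S', e, f, n,
      fun v => ⟨fun m => c v (d ▸ m), fun m => d ▸ cyc_in m⟩, d.symm, (z P rfl fun _ p => p).1⟩
  conf := (main H).conf
  cnt := (main H).cnt

end Vale.Agent.N352.H
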