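import Vale.Agent.N352.Bo.Rl
import Vale.Agent.N352.Bo.Op

/-!
# N352, block Bo: the Borchers class
-/

set_option linter.all false

open Filter Topology
open scoped ComplexConjugate

namespace Vale.Agent.N352.Bo

open P352.GF F Rn P352R N352.H
open UniformSpace (Completion)

noncomputable section

variable {H : Type*} [NormedAddCommGroup H] [InnerProductSpace ℂ H] [CompleteSpace H]
  {K : Dh.Frame H} {Q P : Dh.Theory K} {A C : Fld H} {f g : Fn} {O : Set V}
  {X Y : Module.End ℂ P.dom}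

/-- the grading on the domain -/
def gd (P : Dh.Theory K) : Module.End ℂ P.dom := K.Γ.toLinearMap.restrict P.gam

theorem gd2 : gd P * gd P = 1 := LinearMap.ext fun v => Subtype.ext (gam_gam K v)

theorem gda : Ad (gd P) (gd P) := fun v w => gam_inner K v w

theorem ngs (h : X = (-1 : ℂ) • Y) : X = -Y :=
  LinearMap.ext fun v => (DFunLike.congr_fun h v).trans (neg_one_smul ℂ (Y v))

theorem rg1 {R : Type*} [Ring R] {G X Y : R} (g : G * G = 1) (q : Y * G = -(G * Y))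
    (j : Y * X = G * X * G * Y) : X * (Y * G) = Y * G * X := by
  rw [q, neg_mul, mul_assoc, j, ← mul_assoc, ← mul_assoc G, ← mul_assoc G, g, one_mul, mul_neg,
    mul_assoc]

theorem rg2 {R : Type*} [Ring R] {G X Y : R} (g : G * G = 1) (a : X * G = -(G * X))
    (d : X * (Y * G) * G = Y * G * X * G) : X * Y = -(Y * X) := by
  simp only [mul_assoc, g, mul_one, a, mul_neg] at d
  rwa [← mul_assoc G, g, one_mul] at d

theorem ex_end (r : Dh.RelLoc Q P.dom C) (t : IsTest f) :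
    ∃ X : Module.End ℂ P.dom, ∀ v, (X v : H) = C f v := by
  obtain ⟨_, -, a⟩ := r.4
  exact ⟨⟨⟨fun v => ⟨_, r.1 f t v v.2⟩, fun v w => Subtype.ext (by
    simpa using adj_lc a t v.2 w.2 1 1)⟩, fun c v => Subtype.ext (by
      simpa using adj_lc a t v.2 v.2 c 0)⟩, fun _ => rfl⟩

variable (Q P) in
/-- the letters -/
def Le (O : Set V) : Set (Module.End ℂ P.dom) := {X | ∃ A C f c, Q.fld A ∧ P.fld C ∧ Dh.Agr Q A C ∧
  (c = 1 ∨ c = -1) ∧ Dh.Par K Q.dom c A ∧ Dh.In O f ∧ ∀ v, (X v : H) = C f v}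

variable (e : ∀ B, Q.fld B → ∃ C, P.fld C ∧ Dh.Agr Q B C)
include e

theorem ex_ad (r : Dh.RelLoc Q P.dom C) (t : IsTest f) (x : ∀ v, (X v : H) = C f v) :
    ∃ X', Ad X X' := by
  obtain ⟨C', i, a⟩ := r.4
  obtain ⟨X', y⟩ := ex_end (rel_adj r e i a) (tb t)
  exact ⟨X', fun v w => by
    rw [Submodule.coe_inner, Submodule.coe_inner, x, y, a f t v v.2 w w.2]⟩

theorem ext_k {X' Y'} (a : Ad X X') (b : Ad Y Y')
    (h : ∀ v w : P.dom, Dh.Cyc Q v → Dh.Cyc Q w → inner ℂ w (X v) = inner ℂ w (Y v)) : X = Y := by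
  have k : ∀ v : P.dom, Dh.Cyc Q v → X v = Y v := fun v c => Subtype.ext
    (ext_C fun w d => h v ⟨w, cyc_mem e d⟩ c d)
  refine LinearMap.ext fun v => ext_inner_right ℂ fun w => ?_
  rw [a, b]
  exact congrArg _ (Subtype.ext (ext_C fun u d =>
    (a ⟨u, cyc_mem e d⟩ w).symm.trans ((congrArg (inner ℂ · w) (k _ d)).trans (b _ w))))

theorem kl (r : Dh.RelLoc Q P.dom C) (t : IsTest f) (x : ∀ v, (X v : H) = C f v)
    (s : ∀ g, Dh.In O g → Sep f g) (y : Y ∈ Le Q P O) {ε : ℂ} (k : ε * ε = 1) :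
    Commute X (ku ε (gd P) * Y * ku (-ε) (gd P)) := by
  obtain ⟨A, B, g, c, a, b, z, o, p, i, y⟩ := y
  obtain ⟨X', d⟩ := ex_ad e r t x
  obtain ⟨Y', d'⟩ := ex_ad e (rel_of e b) i.1 y
  obtain ⟨A', -, a'⟩ := Q.adj A a
  have l := fun v w : P.dom => r.6 A A' f g v w a a' t i.1 (s g i)
  have u : ∀ v w : P.dom, Dh.Cyc Q w → inner ℂ w ((Y * X) v) = inner ℂ (A' (Dh.bar g) w) (C f v) :=
    fun v w q => by
      rw [ext_adj e a' b z i.1 q (r.1 f t v v.2), Submodule.coe_inner, Module.End.mul_apply, y, x]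
  have q : Y * gd P = c • (gd P * Y) := LinearMap.ext fun v => Subtype.ext ((y _).trans
    (((ext_par e a b z p (by rcases o with rfl | rfl <;> simp)).1 g i.1 v v.2).trans
      (congrArg (c • K.Γ ·) (y v).symm)))
  rcases o with rfl | rfl
  · rw [ku_ev gd2 k (q.trans (one_smul _ _))]
    exact (ext_k e (d'.mul d) (d.mul d') fun v w m n => by
      rw [u v w n, (l v w m n).1 p, Submodule.coe_inner, Module.End.mul_apply, x, y,
        z g v i.1 m]).symm
  replace q := ngs q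
  have j : Y * X = gd P * X * gd P * Y := ext_k e (d'.mul d) (((gda.mul d).mul gda).mul d')
    fun v w m n => by
      rw [u v w n, (l v w m n).2 p, ← z g v i.1 m, ← y]
      exact congrArg (inner ℂ _ <| K.Γ ·) (x (gd P (Y v))).symm
  rw [ku_od gd2 k q]
  exact Commute.smul_right (rg1 gd2 q j) _

theorem xd (h : Dh.Fin' Q) : ∃ (D : Submodule ℂ Q.dom) (c : E.Cf D) (κ k : _),
    Xd c κ k (gd P) (Le Q P) := by
  obtain ⟨S, G, R⟩ := ex_rl Q
  have g := F.gr.1 (Z.gr.1 R.gr)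
  have m := F.mfa.1 (Z.mfa.1 (R.fin.1 h).1)
  have l := F.fsl.1 (Z.fsl.1 (R.fin.1 h).2)
  have o := ok_of g m l
  obtain ⟨A, a⟩ := (GI.thm _).gen (rs S o) _ (rs_gr g R.even) (rs_even g R.even) rs_cy (rs_mfa m)
    (rs_fsl l)
  let j := (je S).trans (iso _ R.dr)
  have c : ∀ v : N352.cy S, j v = v.1 := fun v => (congrArg _ (je_coe v)).trans (iso_coe _ R.dr _)
  obtain ⟨Γ, u⟩ := p_sur j.conjStarAlgEquiv K.Γ
  have y : ∀ v : N352.cy S, Dh.Cyc Q v.1 := fun v => R.cyc_up v.2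
  refine ⟨_, ⟨rs S o, rg S G, A, Γ, Br.gr.1 a.toGr, a.vac, a.add, a.der, fun v => j.injective ?_⟩,
    j.symm.toLinearIsometry.comp P.dom.subtypeₗᵢ, fun v => ⟨_, cyc_mem e (y v)⟩,
    Br.mfa.1 (rs_mfa (h := o) m), fun L x i => Pf.cova (Br.gr.1 a.toGr) (Br.mfa.1 (rs_mfa m))
      (Br.fsl.1 (rs_fsl l)) 1 L x one_pos i, fun v => j.symm_apply_eq.2 (c v).symm,
    fun x => j.symm_apply_eq.2 ?_, fun O B f ⟨B', b, x⟩ i => ?_⟩
  · rw [← cj, u, c, c]
    exact (R.gam _).trans (congrArg _ (rg_coe g R.even v).symm)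
  · exact ((cj j Γ _).symm.trans (by rw [u]; exact congrArg _ (j.apply_symm_apply _))).symm
  obtain ⟨A, s, z⟩ := R.up B' b
  obtain ⟨A0, A1, s0, s1, p0, p1, w⟩ := Q.split A s
  obtain ⟨C0, q0, z0⟩ := e A0 s0
  obtain ⟨C1, q1, z1⟩ := e A1 s1
  obtain ⟨X0, x0⟩ := ex_end (rel_of e q0) i.1
  obtain ⟨X1, x1⟩ := ex_end (rel_of e q1) i.1
  obtain ⟨Y0, y0⟩ := ex_ad e (rel_of e q0) i.1 x0
  obtain ⟨Y1, y1⟩ := ex_ad e (rel_of e q1) i.1 x1
  refine ⟨X0 + X1, add_mem (Algebra.subset_adjoin ⟨_, _, f, 1, s0, q0, z0, .inl rfl, p0, i, x0⟩)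
    (Algebra.subset_adjoin ⟨_, _, f, -1, s1, q1, z1, .inr rfl, p1, i, x1⟩), ⟨Y0 + Y1, fun v w => by
      simp only [LinearMap.add_apply, inner_add_left, inner_add_right, y0 v w, y1 v w]⟩,
    fun v => Subtype.ext ?_⟩
  rw [LinearMap.add_apply, Submodule.coe_add, x0, x1, z0 f _ i.1 (y v), z1 f _ i.1 (y v),
    ← w f i.1 _ v.1.2]
  exact (z f _ i.1).trans (congrArg Subtype.val (x f v i.1).symm)

variable (h : Dh.Fin' Q) (r : Dh.RelLoc Q P.dom A) (r' : Dh.RelLoc Q P.dom C)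
include h r r'

theorem wdg {a b y} (ha : Dh.IsNull a) (hb : Dh.IsNull b) (hab : mdot a b = 1)
    (i : Dh.In (Dh.Wdg a b y) f) (j : Dh.In (Dh.Wdg b a y) g) (x : ∀ v, (X v : H) = A f v)
    (z : ∀ v, (Y v : H) = C g v) :
    Commute X (ku (-1) (gd P) * Y * ku 1 (gd P)) := by
  obtain ⟨D, c, κ, k, d⟩ := xd e h
  obtain ⟨X', p⟩ := ex_ad e r i.1 x
  obtain ⟨Y', q⟩ := ex_ad e r' j.1 z
  have l : ∀ {A f} {X : Module.End ℂ P.dom}, Dh.RelLoc Q P.dom A → Dh.In (Dh.Wdg a b y) f →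
      (∀ v, (X v : H) = A f v) →
      ∀ Y ∈ Le Q P (Dh.Wdg b a y), Commute X (ku (-1) (gd P) * Y * ku 1 (gd P)) :=
    fun r i x Y m => by simpa only [neg_neg] using kl e r i.1 x (fun g j =>
      P352X.Ap.sep_wdg ha hb i.2.2 j.2.2) m (ε := -1) (by norm_num)
  refine d.com ha hb hab (fun X ⟨_, _, _, _, _, b, _, _, _, i, x⟩ => l (rel_of e b) i x) p (l r i x)
    ((d.ad.mul q).mul d.ad.symm) fun Z m => ?_
  have := congrArg (ku (-1) (gd P) * · * ku 1 (gd P)) (kl e r' j.1 z (fun g i =>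
    P352X.Ap.sep_wdg hb ha j.2.2 i.2.2) m (one_mul 1)).eq
  have u : ku (-1) (gd P) * ku 1 (gd P) = 1 := by
    simpa using ku_ev gd2 (e := -1) (by norm_num) (Commute.one_left (gd P)).eq
  have u' : ∀ x, ku (-1) (gd P) * (ku 1 (gd P) * x) = x := fun x => by rw [← mul_assoc, u, one_mul]
  simpa only [Commute, SemiconjBy, mul_assoc, u, u', mul_one] using this

omit h in
theorem glob {ε : ℂ} {v} (m : v ∈ P.dom) (k : ∀ a b y f g, Dh.IsNull a → Dh.IsNull b →
    mdot a b = 1 →    Dh.In (Dh.Wdg a b y) f → Dh.In (Dh.Wdg b a y) g → A f (C g v) = ε • C g (A f v))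
    (t : IsTest f) (t' : IsTest g) (s : Sep f g) : A f (C g v) = ε • C g (A f v) := by
  obtain ⟨A', i, a⟩ := r.4
  obtain ⟨C', j, c⟩ := r'.4
  have l : ∀ {A}, Dh.RelLoc Q P.dom A → ∀ f g, Dh.In Set.univ f → Dh.In Set.univ g → ∀ v ∈ P.dom,
      A (fun x => f x + g x) v = A f v + A g v := fun r f g p q v m => by
    simpa using r.2 f g 1 p.1 q.1 v m
  have key := P352X.EB.pou_row H (fun f g => A f (C g v) - ε • C g (A f v))
    (fun f f' g p p' q => by
      have := adj_lc c q.1 (r.1 f p.1 v m) (r.1 f' p'.1 v m) 1 1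
      simp only [one_smul] at this
      rw [l r f f' p p' _ (r'.1 g q.1 v m), l r f f' p p' v m, this]
      module) (fun f g g' p q q' => by
      have := adj_lc a p.1 (r'.1 g q.1 v m) (r'.1 g' q'.1 v m) 1 1
      simp only [one_smul] at this
      rw [l r' g g' q q' _ (r.1 f p.1 v m), l r' g g' q q' v m, this]
      module) fun x y z => by
    obtain ⟨a, b, z, ha, hb, hab, p, q⟩ := N352.K.ex_wdg z
    obtain ⟨δ, d, p⟩ := Metric.isOpen_iff.1 (P352X.Ap.open_wdg a b z) x p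
    obtain ⟨δ', d', q⟩ := Metric.isOpen_iff.1 (P352X.Ap.open_wdg b a z) y q
    exact ⟨min δ δ', lt_min d d', fun f g i j => sub_eq_zero.2 (k a b z f g ha hb hab
      ⟨i.1, i.2.1, i.2.2.trans ((Metric.ball_subset_ball (min_le_left _ _)).trans p)⟩
      ⟨j.1, j.2.1, j.2.2.trans ((Metric.ball_subset_ball (min_le_right _ _)).trans q)⟩)⟩
  have b : ∀ {A A' : Fld H}, Dh.Adj P.dom A A' → ∀ f, IsTest f → ∀ w ∈ P.dom, ∀ v ∈ P.dom,
      inner ℂ w (A f v) = inner ℂ (A' (Dh.bar f) w) v := fun a f t w n v m => by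
    rw [adj_symm a _ (tb t) w n v m, bb]
  refine ext_D P fun w n => ?_
  rw [inner_smul_right, b c g t' w n _ (r.1 f t v m)]
  refine Tn.ext_sub (u := fun f => inner ℂ w (A f (C g v)))
    (u' := fun f => ε * inner ℂ (C' (Dh.bar g) w) (A f v)) (r.3 _ (r'.1 g t' v m) w n)
    (continuous_const.mul (r.3 v m _ (j _ (tb t') w n))) t fun f' p => ?_
  rw [← b c g t' w n _ (r.1 f' p.1 v m), b a f' p.1 w n _ (r'.1 g t' v m)]
  refine Tn.ext_sub (u := fun g => inner ℂ (A' (Dh.bar f') w) (C g v))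
    (u' := fun g => ε * inner ℂ w (C g (A f' v))) (r'.3 v m _ (i _ (tb p.1) w n))
    (continuous_const.mul (r'.3 _ (r.1 f' p.1 v m) w n)) t' fun g' q => ?_
  rw [← b a f' p.1 w n _ (r'.1 g' q.1 v m), sub_eq_zero.1 (key f' g' (Tn.In.univ p) (Tn.In.univ q)
    fun x hx y hy => s x (p.2.2 hx) y (q.2.2 hy)), inner_smul_right]

/-- **relative locality is transitive** -/
theorem rel_loc (t : IsTest f) (t' : IsTest g) (s : Sep f g) {v} (m : v ∈ P.dom) :
    (Dh.Par K P.dom 1 A → A f (C g v) = C g (A f v)) ∧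
      (Dh.Par K P.dom (-1) A → Dh.Par K P.dom (-1) C → A f (C g v) = -C g (A f v)) := by
  have p : ∀ {c A f} {X : Module.End ℂ P.dom}, IsTest f → Dh.Par K P.dom c A → (∀ v, (X v : H) = A f v) →
      X * gd P = c • (gd P * X) := fun {c A f X} t p x => LinearMap.ext fun v =>
    Subtype.ext ((x _).trans ((p.1 f t v v.2).trans (congrArg (c • K.Γ ·) (x v).symm)))
  refine ⟨fun q => (glob e r r' m (fun a b y f g ha hb hab i j => ?_) t t' s).trans (one_smul ℂ _),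
    fun q q' => (glob e r r' m (fun a b y f g ha hb hab i j => ?_) t t' s).trans
      (neg_one_smul ℂ _)⟩ <;>
  obtain ⟨X, x⟩ := ex_end r i.1 <;> obtain ⟨Y, z⟩ := ex_end r' j.1 <;>
  have k := wdg e h r r' ha hb hab i j x z <;>
  rw [← z ⟨v, m⟩, ← x ⟨v, m⟩, ← z, ← x, ← Submodule.coe_smul] <;> refine congrArg _ ?_
  · have c : ∀ ε, Commute X (ku ε (gd P)) := fun ε => ((Commute.one_right X).smul_right _).add_right
      (Commute.smul_right ((p i.1 q x).trans (one_smul _ _)) _)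
    have u : ku 1 (gd P) * ku (-1) (gd P) = 1 := by
      simpa using ku_ev gd2 (one_mul 1) (Commute.one_left (gd P)).eq
    have := ((c 1).mul_right k).mul_right (c (-1))
    rw [← mul_assoc, ← mul_assoc, u, one_mul, mul_assoc, u, mul_one] at this
    exact (DFunLike.congr_fun this.eq _).trans (one_smul _ _).symm
  have a := ngs (p i.1 q x)
  have b := ngs (p j.1 q' z)
  have c := ku_od gd2 (e := -1) (by norm_num) b
  rw [neg_neg] at c
  have d := congrArg (· * gd P) (smul_right_injective _ (mul_ne_zero (neg_ne_zero.2 one_ne_zero)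
    Complex.I_ne_zero) ((mul_smul_comm _ _ _).symm.trans ((c ▸ k).eq.trans (smul_mul_assoc _ _ _))))
  exact (DFunLike.congr_fun (rg2 gd2 a d) _).trans (neg_one_smul ℂ _).symm

omit r r' in
/-- **the Borchers class** -/
theorem borchers : ∃ R : Dh.Theory K, R.dom = P.dom ∧ Dh.Bor Q R ∧ ∀ A, P.fld A → R.fld A :=
  ⟨{ dom := P.dom
     fld := Dh.RelLoc Q P.dom
     inv := ⟨P.inv.1, fun _ f r => r.1 f⟩
     gam := P.gam
     rep := P.rep
     cyclic S m := P.cyclic S ⟨m.1, fun A f p => m.2 A f (rel_of e p)⟩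
     lin _ f g c r := r.2 f g c
     cont _ r := r.3
     adj _ r := r.4.imp fun _ a => ⟨rel_adj r e a.1 a.2, a.2⟩
     split A r := ⟨_, _, rel_lc r (rel_gam r e) (1 / 2) (1 / 2), rel_lc r (rel_gam r e) (1 / 2) (-1 / 2),
       ⟨fun f _ v _ => by simp only [map_add, map_smul, gam_gam]; module⟩,
       ⟨fun f _ v _ => by simp only [map_add, map_smul, gam_gam]; module⟩, fun f _ v _ => by module⟩
     transl _ a f r := r.5 a f
     loc _ _ _ _ r r' t t' s _ m := rel_loc e h r r' t t' s m }, rfl,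
    ⟨fun B b => (e B b).imp fun _ k => ⟨rel_of e k.1, k.2⟩, fun _ => .rfl⟩, fun _ => rel_of e⟩

end

end Vale.Agent.N352.Bo
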