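import Vale.Agent.N352.Bo.Ab
import Vale.Agent.N352.Rn.Du
import Vale.Agent.N352.K.Lift

/-!
# N352, block Bo: vectors that are localized in opposite wedges
-/

set_option linter.all false

open Filter Topology
open scoped ComplexConjugate

namespace Vale.Agent.N352.Rn

open Vale.Agent.P352 Vale.Agent.P352.GF Vale.Agent.P352.BW Vale.Agent.P352.H246
open Vale.Agent.P352.H496 Vale.Agent.P352.H755 Vale.Agent.P352.H15
open Vale.Agent.P352X Vale.Agent.P352X.EB E P352W.Net P352R.Tw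
open UniformSpace (Completion)

noncomputable section

universe u

variable {D : Type u} [NormedAddCommGroup D] [InnerProductSpace ℂ D] {c : Cf D} {a b y : V}
  {O O' : Set V} {X X' : D → D} {ξ ξ' η η' : Completion D}

theorem den (Q : Theory D) (ha : IsNull a) (hb : IsNull b) (hab : GF.mdot a b = 1) (y : V) :
    DenseRange fun i : {p : (D → D) × (D → D) // Al Q (Wdg a b y) p.1 p.2} =>
      (i.1.1 Q.vac : Completion D) :=
  (Completion.denseRange_coe.dense_image (Completion.continuous_coe D)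
    (dense_big (Q := Q) (NA.Afw.big ha hb hab y))).mono (by
      rintro _ ⟨v, hv, rfl⟩
      obtain ⟨A, A', h, rfl⟩ := exists_Al hv
      exact ⟨⟨(A, A'), h⟩, rfl⟩)

variable (m : MfAll c.Q) (cv : ∀ L a, IsLor L → H246.Cov c.Q 1 L a)
include cv

theorem mv {L} (hL : IsLor L) (e : sim 1 L y '' O ⊆ O') (h : Al c.Q O X X') : ∃ Y Y',
    Al c.Q O' Y Y' ∧ (Y c.Q.vac : Completion D) = Ug c.Q 1 L y (X c.Q.vac : D) ∧
      (Y' c.Q.vac : Completion D) = Ug c.Q 1 L y (X' c.Q.vac : D) := by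
  obtain ⟨Y, Y', k, p, q⟩ := cov_al one_pos hL (cv L y hL) h
  exact ⟨Y, Y', k.mono e, by rw [Grp.coe one_pos hL, p, c.Q.U_vac _ _ _ one_pos hL],
    by rw [Grp.coe one_pos hL, q, c.Q.U_vac _ _ _ one_pos hL]⟩

theorem mv2 (e : ∀ s, (gb c s).act '' O ⊆ O) (t) (h : Al c.Q O X X') : ∃ Y Y',
    Al c.Q O Y Y' ∧ (Y c.Q.vac : Completion D) = Vb c t (X c.Q.vac : D) ∧
      (Y' c.Q.vac : Completion D) = Vb c t (X' c.Q.vac : D) := by
  obtain ⟨Y, Y', k, p, q⟩ := mv cv (gb c (t / 2)).hL (e _) h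
  obtain ⟨Z, Z', k', p', q'⟩ := mv cv (gb c (t / 2)).hL (e _) k
  exact ⟨Z, Z', k', p'.trans (congrArg _ p), q'.trans (congrArg _ q)⟩

variable (c) in
/-- `ξ` is localized relative to the polynomials in `O`, twisted by `u` -/
def Lv (u : Completion D →L[ℂ] Completion D) (O : Set V) (ξ ξ' : Completion D) : Prop :=
  ∀ Y Y', Al c.Q O Y Y' → inner ℂ (u (Y' c.Q.vac : D)) ξ = inner ℂ ξ' (u (Y c.Q.vac : D))

theorem Lv.mv {u L} (k : Cu c u) (hL : IsLor L) (e : sim 1 L y '' O ⊆ O')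
    (h : Lv c u O' (Ug c.Q 1 L y ξ) (Ug c.Q 1 L y ξ')) : Lv c u O ξ ξ' := fun Y Y' p => by
  obtain ⟨Z, Z', q, r, s⟩ := Rn.mv cv hL e p
  have i := (ContinuousLinearMap.inner_map_map_of_mem_unitary
    (SGx.uni (c := c) ⟨⟨1, L, y, one_pos, hL⟩, false⟩))
  have j := DFunLike.congr_fun (k.2 ⟨⟨1, L, y, one_pos, hL⟩, false⟩)
  have := h Z Z' q
  rw [r, s] at this
  exact (i _ _).symm.trans ((congrArg (inner ℂ · _) (j _).symm).trans (this.trans
    ((congrArg _ (j _)).trans (i _ _))))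

include m

theorem tri0 (h3 : ∀ Y Y', Al c.Q W1 Y Y' → Lv c 1 W0 (kt c (Y c.Q.vac : D)) (kt c (Y' c.Q.vac : D)))
    (h1 : Lv c (kt c) W1 ξ ξ') (h2 : Lv c 1 W0 η η') : inner ℂ ξ' η = inner ℂ η' ξ := by
  have u := u1 c m
  choose X X' Y Y' q a b using fun i : {p : (D → D) × (D → D) // Al c.Q W0 p.1 p.2} => qd3 u m i.2
  have d := den c.Q null_va null_vb md_ab 0
  have k : ∀ t z, kt c (Vb c t z) = Vb c t (kt c z) := fun t z => by
    have := DFunLike.congr_fun ((cuk (c := c)).2 (gb c (t / 2)))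
    exact (this _).trans (congrArg ((gb c (t / 2)).U c) (this _))
  have s : Function.Surjective (kt c) := fun z => ⟨star (kt c) z, DFunLike.congr_fun cuk.1.2 z⟩
  have d' := s.denseRange.comp (den c.Q null_vb null_va (by rw [md_comm]; exact md_ab) 0)
    (kt c).continuous
  refine u.tri (x' := fun i => (i.1.2 c.Q.vac : D)) (y := fun i => (Y i c.Q.vac : D))
    (z' := fun i => kt c (i.1.2 c.Q.vac : D)) d (d.mono ?_) d'
    (fun i => ?_) (fun i j => ?_) (fun t i => ?_) (fun t i => ?_)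
    (fun i j => ?_) (fun j => ?_) fun i => ?_
  · rintro _ ⟨i, rfl⟩
    exact ⟨⟨(i.1.2, i.1.1), i.2.star⟩, rfl⟩
  · simpa only [← a] using (q i).h.ho
  · rw [Completion.inner_coe, Completion.inner_coe, ← b, ← b]
    exact (q i).inn u (q j)
  · obtain ⟨Z, Z', p⟩ := mv2 cv (fun s => T.H732W.bq_wdg null_va null_vb md_ab s) t i.2
    exact ⟨⟨(Z, Z'), p.1⟩, p.2⟩
  · obtain ⟨Z, Z', p, r, s⟩ := mv2 cv im1 t i.2
    exact ⟨⟨(Z, Z'), p⟩, (congrArg (kt c) r).trans (k _ _), (congrArg (kt c) s).trans (k _ _)⟩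
  · exact h3 _ _ j.2 _ _ i.2
  · exact h1 _ _ j.2
  · exact h2 _ _ i.2

/-- **vectors that are localized in opposite wedges** -/
theorem tri (ha : IsNull a) (hb : IsNull b) (hab : GF.mdot a b = 1)
    (h3 : ∀ Y Y', Al c.Q (Wdg b a y) Y Y' →
      Lv c 1 (Wdg a b y) (kt c (Y c.Q.vac : D)) (kt c (Y' c.Q.vac : D)))
    (h1 : Lv c (kt c) (Wdg b a y) ξ ξ') (h2 : Lv c 1 (Wdg a b y) η η') :
    inner ℂ ξ' η = inner ℂ η' ξ := by
  obtain ⟨L, hL, e⟩ := JCa.trans ha hb (hab ▸ one_pos)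
  have w := SGx.uni (c := c) ⟨⟨1, L, y, one_pos, hL⟩, false⟩
  have s : Function.Surjective (Ug c.Q 1 L y) := fun z => ⟨_, DFunLike.congr_fun w.2 z⟩
  have j : ∀ z, kt c (Ug c.Q 1 L y z) = Ug c.Q 1 L y (kt c z) :=
    DFunLike.congr_fun ((cuk (c := c)).2 ⟨⟨1, L, y, one_pos, hL⟩, false⟩)
  obtain ⟨ξ, rfl⟩ := s ξ
  obtain ⟨ξ', rfl⟩ := s ξ'
  obtain ⟨η, rfl⟩ := s η
  obtain ⟨η', rfl⟩ := s η'
  refine (ContinuousLinearMap.inner_map_map_of_mem_unitary w _ _).trans ((tri0 m cv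
    (fun Y Y' p => Lv.mv cv cu1 hL (e y).1.le ?_) (h1.mv cv cuk hL (e y).2.le)
    (h2.mv cv cu1 hL (e y).1.le)).trans
      (ContinuousLinearMap.inner_map_map_of_mem_unitary w _ _).symm)
  obtain ⟨Z, Z', q, r, s⟩ := mv cv hL (e y).2.le p
  have := h3 Z Z' q
  rwa [r, s, j, j] at this

end

end Vale.Agent.N352.Rn
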